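import Crest.Agent.Helper75.MC.Defs
import Crest.Agent.Helper16.S0171.Energy

/-!
# S0171, package WP-C : the Hilbert-space fourth-moment inequality `hilbert_main`

Derived from the one-step energy inequality `Crest.Agent.Helper16.S0171.energy`
(exact fourth-moment expansion of the cloud of the geometrically killed chain + Young).
-/

set_option autoImplicit false

namespace Crest.Agent.Helper16.MC

open Finset Crest.Agent.Helper75.MC

variable {n : ℕ}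

theorem hilbert_main {H : Type*} [NormedAddCommGroup H] [InnerProductSpace ℝ H]
    {w : Fin n → ℝ} {A : Matrix (Fin n) (Fin n) ℝ} (hc : Chain n w A)
    {κ : ℝ} (hκ0 : 0 < κ) (hκ1 : κ < 1) {G B : Matrix (Fin n) (Fin n) ℝ}
    (hK : Kernel w A κ G B) (Φ : Fin n → H) :
    κ / (1 - κ) * (27 * ∑ i, w i * (ee A B Φ i * sig2 B Φ i)
        + 6 * ∑ i, ∑ j, w i * A i j * ‖uu B Φ j - uu B Φ i‖ ^ 4)
      ≤ 54 * ∑ i, w i * (sig2 B Φ i * dd A B Φ i) + 54 * ∑ i, w i * Q4 B Φ i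
        + 14 * ∑ i, w i * ‖Φ i - uu B Φ i‖ ^ 4 := by
  have hE := Crest.Agent.Helper16.S0171.energy w A B κ Φ hc.w_nonneg hc.A_nonneg hc.A_row
    hc.rev hK.B_nonneg hK.B_row hκ0.le hκ1.le hK.B_res
  have hu : Crest.Agent.Helper16.S0171.uB B Φ = uu B Φ := rfl
  have hs : Crest.Agent.Helper16.S0171.sig2 B Φ = sig2 B Φ := rfl
  have hm : Crest.Agent.Helper16.S0171.m4 B Φ = Q4 B Φ := rfl
  rw [hu, hs, hm] at hE
  set P2 := ∑ i, w i * (ee A B Φ i * sig2 B Φ i) with hP2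
  set R4 := ∑ i, ∑ j, w i * A i j * ‖uu B Φ j - uu B Φ i‖ ^ 4 with hR4
  set S := ∑ i, w i * (sig2 B Φ i * dd A B Φ i) with hS
  set Q := ∑ i, w i * Q4 B Φ i with hQ
  set W := ∑ i, w i * ‖Φ i - uu B Φ i‖ ^ 4 with hW
  have hsig0 : ∀ i, 0 ≤ sig2 B Φ i := fun i =>
    Finset.sum_nonneg (fun j _ => mul_nonneg (hK.B_nonneg i j) (by positivity))
  have hdd0 : ∀ i, 0 ≤ dd A B Φ i := fun i =>
    Finset.sum_nonneg (fun j _ => mul_nonneg (hc.A_nonneg i j) (by positivity))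
  have hQ40 : ∀ i, 0 ≤ Q4 B Φ i := fun i =>
    Finset.sum_nonneg (fun j _ => mul_nonneg (hK.B_nonneg i j) (by positivity))
  have hS0 : 0 ≤ S := Finset.sum_nonneg (fun i _ =>
    mul_nonneg (hc.w_nonneg i) (mul_nonneg (hsig0 i) (hdd0 i)))
  have hQ0 : 0 ≤ Q := Finset.sum_nonneg (fun i _ => mul_nonneg (hc.w_nonneg i) (hQ40 i))
  have hW0 : 0 ≤ W := Finset.sum_nonneg (fun i _ => mul_nonneg (hc.w_nonneg i) (by positivity))
  have hR0 : 0 ≤ R4 := Finset.sum_nonneg (fun i _ => Finset.sum_nonneg (fun j _ =>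
    mul_nonneg (mul_nonneg (hc.w_nonneg i) (hc.A_nonneg i j)) (by positivity)))
  have h1 : ∑ i, ∑ j, w i * A i j *
      (‖uu B Φ i - uu B Φ j‖ ^ 4 + 2 * ‖uu B Φ i - uu B Φ j‖ ^ 2 * sig2 B Φ j)
      = R4 + 2 * P2 := by
    have hA : ∑ i, ∑ j, w i * A i j * ‖uu B Φ i - uu B Φ j‖ ^ 4 = R4 := by
      rw [hR4]
      refine Finset.sum_congr rfl (fun i _ => Finset.sum_congr rfl (fun j _ => ?_))
      rw [norm_sub_rev]
    have hB : ∑ i, ∑ j, w i * A i j * (‖uu B Φ i - uu B Φ j‖ ^ 2 * sig2 B Φ j) = P2 := by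
      rw [hP2, Finset.sum_comm]
      refine Finset.sum_congr rfl (fun j _ => ?_)
      unfold ee
      rw [Finset.sum_mul, Finset.mul_sum]
      refine Finset.sum_congr rfl (fun i _ => ?_)
      rw [hc.rev i j]; ring
    rw [← hA, ← hB, Finset.mul_sum, ← Finset.sum_add_distrib]
    refine Finset.sum_congr rfl (fun i _ => ?_)
    rw [Finset.mul_sum, ← Finset.sum_add_distrib]
    exact Finset.sum_congr rfl (fun j _ => by ring)
  rw [h1] at hE
  have h1κ : 0 < 1 - κ := by linarith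
  rw [div_mul_eq_mul_div, div_le_iff₀ h1κ]
  have e1 : 0 ≤ κ * R4 := mul_nonneg hκ0.le hR0
  have e2 : 0 ≤ (1 - κ) * ((1 - κ) * Q) := mul_nonneg h1κ.le (mul_nonneg h1κ.le hQ0)
  have e3 : 0 ≤ (1 - κ) * ((1 - κ) * W) := mul_nonneg h1κ.le (mul_nonneg h1κ.le hW0)
  have e4 : 0 ≤ (1 - κ) * S := mul_nonneg h1κ.le hS0
  have e5 : 0 ≤ (1 - κ) * W := mul_nonneg h1κ.le hW0
  nlinarith

end Crest.Agent.Helper16.MC
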